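import Crest.Agent.X262.St91.Defs
import Crest.Agent.X262.Pf19.Pf

/-!
# Row 262, G4 / CERT (helper63), part 1: the interface for `NoLine` and `NoConic`

* `cur om`  : the six forms as matrices;
* `InW om P`: `P` lies in the linear span `W` of the surface;
* `Thd G`   : the two common points of the curves `a`, `b`, and the third curve `c`;
* `NcStmt`  : these data exclude lines and conics;
* `CertStmt`: the output of CERT.
-/

set_option autoImplicit false

noncomputable section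

namespace Crest.Agent.X262.Cert63

open Crest.Agent.X262.St91

/-- the six forms as matrices -/
def cur (om : Fin 6 → I2 → ℂ) : Pf19.Om := fun a i j => om a (i, j)

/-- the linear space `W` -/
def InW (om : Fin 6 → I2 → ℂ) (P : I2 → ℂ) : Prop := (∀ i j, P (i, j) = -P (j, i)) ∧ ln om P = 0

/-- the polarised Plücker relations -/
def Pol (P Q : I2 → ℂ) : Prop := ∀ i j k l,
  P (i, j) * Q (k, l) - P (i, k) * Q (j, l) + P (i, l) * Q (j, k) +
    (Q (i, j) * P (k, l) - Q (i, k) * P (j, l) + Q (i, l) * P (j, k)) = 0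

/-- the values of the six forms on the span of `u` span a space of dimension at least four -/
def Rk4 (om : Fin 6 → I2 → ℂ) (u : Fin 4 → Fin 6 → ℂ) : Prop :=
  ∀ R : Submodule ℂ (Fin 6 → ℂ), (∀ i j, Pf19.w (cur om) (u i) (u j) ∈ R) →
    4 ≤ Module.finrank ℂ R

/-- `e 0`, `e 1` are coordinates on the line through the two common points of `a` and `b`;
the hyperplane section `lam = 0` consists of `a`, `b` and a third curve, whose chords and tangents
do not carry conics -/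
structure Thd {om : Fin 6 → I2 → ℂ} (G : Geo om) where
  /-- the coordinates on the intersection of the two spans -/
  e : Fin 2 → I2 → ℂ
  eM : ∀ P : I2 → ℂ, OnS om P → ln G.M.π P = 0 → ∀ k, ln e P k = 0 → ln G.N.π P = 0
  eN : ∀ P : I2 → ℂ, OnS om P → ln G.N.π P = 0 → ∀ k, ln e P k = 0 → ln G.M.π P = 0
  inj : ∀ P : I2 → ℂ, InW om P → ln G.M.π P = 0 → ln G.N.π P = 0 → ln e P = 0 → P = 0
  two : ∀ P : I2 → ℂ, OnS om P → ln G.M.π P = 0 → ln G.N.π P = 0 → ln e P 0 * ln e P 1 = 0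
  /-- the hyperplane -/
  lam : Fin 1 → I2 → ℂ
  chord : ∀ P P' : I2 → ℂ, OnS om P → OnS om P' → ln lam P = 0 → ln lam P' = 0 → ln G.M.π P ≠ 0 →
    ln G.N.π P ≠ 0 → ln G.M.π P' ≠ 0 → ln G.N.π P' ≠ 0 → ¬ Par P P' →
      ∃ u : Fin 4 → Fin 6 → ℂ, P = wd (u 0) (u 1) ∧ P' = wd (u 2) (u 3) ∧ Rk4 om u
  tang : ∀ P Q : I2 → ℂ, OnS om P → InW om Q → Pol P Q → ln lam P = 0 → ln lam Q = 0 → ln G.M.π P ≠ 0 →
    ln G.N.π P ≠ 0 → ¬ Par P Q →
      ∃ u : Fin 4 → Fin 6 → ℂ, P = wd (u 0) (u 1) ∧ Q = wd (u 2) (u 1) + wd (u 0) (u 3) ∧ Rk4 om u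

/-- no lines and no conics -/
def NcStmt : Prop := ∀ (om : Fin 6 → I2 → ℂ) (G : Geo om), Nonempty (Thd G) →
  Pf19.Skew (cur om) → Pf19.NoLine ℂ (cur om) ∧ Pf19.NoConic ℂ (cur om)

/-- the output of CERT -/
def CertStmt : Prop := ∃ om : Fin 6 → I2 → ℂ, Nonempty (Geo om) ∧ Pf19.Skew (cur om) ∧
  Top.SmCub (Pf19.cub (cur om)) ∧ Pf19.NoLine ℂ (cur om) ∧ Pf19.NoConic ℂ (cur om)

end Crest.Agent.X262.Cert63
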