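import Mathlib

/-!
# Row 262, G4 / CERT (helper63), part 0: a checker for polynomial identities

`E` : expressions, `E.ev x e` : the value in a ring.  An identity is checked by one evaluation at the
point `x i = 2 ^ (w * d 0 * ⋯ * d (i - 1))` (Kronecker substitution).

* `E.okP p w k ds e = true → e.ev x = 0` in every ring of characteristic `p` (`ev_of_okP`);
* `E.okZ w ds e = true → e.ev x = 0` in every ring (`ev_of_okZ`);
* `dec`, `decH` : decoders for packed cofactors (no property of them is ever used).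
-/

set_option autoImplicit false

open MvPolynomial Finset

noncomputable section

namespace Crest.Agent.X262.Cert63

/-- expressions -/
inductive E : Type
  | v (i : ℕ) : E
  | n (c : ℕ) : E
  | add (a b : E) : E
  | mul (a b : E) : E
  | neg (a : E) : E
  | pow (a : E) (k : ℕ) : E

namespace E

instance : Add E := ⟨add⟩
instance : Mul E := ⟨mul⟩
instance : Neg E := ⟨neg⟩
instance : Sub E := ⟨fun a b => add a (neg b)⟩
instance : Pow E ℕ := ⟨pow⟩
instance (c : ℕ) : OfNat E c := ⟨n c⟩

/-- the value in a ring -/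
def ev {R : Type*} [CommRing R] (x : ℕ → R) : E → R
  | v i => x i
  | n c => c
  | add a b => ev x a + ev x b
  | mul a b => ev x a * ev x b
  | neg a => -ev x a
  | pow a k => ev x a ^ k

/-- the value in a semiring, `m` stands for `-1` -/
def es {S : Type*} [CommSemiring S] (m : S) (x : ℕ → S) : E → S
  | v i => x i
  | n c => c
  | add a b => es m x a + es m x b
  | mul a b => es m x a * es m x b
  | neg a => m * es m x a
  | pow a k => es m x a ^ k

section ev

variable {R : Type*} [CommRing R] (x : ℕ → R)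

@[simp] theorem ev_v (i : ℕ) : (v i).ev x = x i := rfl
@[simp] theorem ev_n (c : ℕ) : (n c).ev x = c := rfl
@[simp] theorem ev_add' (a b : E) : (add a b).ev x = a.ev x + b.ev x := rfl
@[simp] theorem ev_mul' (a b : E) : (mul a b).ev x = a.ev x * b.ev x := rfl
@[simp] theorem ev_neg' (a : E) : (neg a).ev x = -a.ev x := rfl
@[simp] theorem ev_pow' (a : E) (k : ℕ) : (pow a k).ev x = a.ev x ^ k := rfl
@[simp] theorem ev_add (a b : E) : (a + b).ev x = a.ev x + b.ev x := rfl
@[simp] theorem ev_mul (a b : E) : (a * b).ev x = a.ev x * b.ev x := rfl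
@[simp] theorem ev_neg (a : E) : (-a).ev x = -a.ev x := rfl
@[simp] theorem ev_sub (a b : E) : (a - b).ev x = a.ev x - b.ev x := (sub_eq_add_neg _ _).symm
@[simp] theorem ev_pow (a : E) (k : ℕ) : (a ^ k).ev x = a.ev x ^ k := rfl
@[simp] theorem ev_ofNat (c : ℕ) : (no_index (OfNat.ofNat c : E)).ev x = c := rfl

theorem map_ev {S : Type*} [CommRing S] (φ : R →+* S) (e : E) :
    φ (e.ev x) = e.ev fun i => φ (x i) := by
  induction e <;> simp [*]

theorem map_es {S T : Type*} [CommSemiring S] [CommSemiring T] (φ : S →+* T) (m : S) (y : ℕ → S)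
    (e : E) : φ (e.es m y) = e.es (φ m) fun i => φ (y i) := by
  induction e <;> simp [es, *]

theorem es_neg_one (e : E) : e.es (-1) x = e.ev x := by
  induction e <;> simp [es, *]

end ev

/-! ### kernel friendly evaluators -/

/-- `es` on natural numbers -/
def eN (m : ℕ) (x : ℕ → ℕ) (e : E) : ℕ :=
  E.rec x (fun c => c) (fun _ _ a b => Nat.add a b) (fun _ _ a b => Nat.mul a b)
    (fun _ a => Nat.mul m a) (fun _ k a => Nat.pow a k) e

theorem eN_eq (m : ℕ) (x : ℕ → ℕ) (e : E) : e.eN m x = e.es m x := by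
  induction e with
  | v i => rfl
  | n c => rfl
  | add a b ha hb => exact congrArg₂ (· + ·) ha hb
  | mul a b ha hb => exact congrArg₂ (· * ·) ha hb
  | neg a ha => exact congrArg (m * ·) ha
  | pow a k ha => exact congrArg (· ^ k) ha

/-- `ev` on integers -/
def eZ (x : ℕ → ℕ) (e : E) : ℤ :=
  E.rec (fun i => Int.ofNat (x i)) Int.ofNat (fun _ _ a b => Int.add a b)
    (fun _ _ a b => Int.mul a b) (fun _ a => Int.neg a) (fun _ k a => Int.pow a k) e

theorem eZ_eq (x : ℕ → ℕ) (e : E) : e.eZ x = e.ev fun i => (x i : ℤ) := by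
  induction e with
  | v i => rfl
  | n c => rfl
  | add a b ha hb => exact congrArg₂ (· + ·) ha hb
  | mul a b ha hb => exact congrArg₂ (· * ·) ha hb
  | neg a ha => exact congrArg (fun t : ℤ => -t) ha
  | pow a k ha => exact congrArg (· ^ k) ha

/-- a bound for the degree in the variable `j` -/
def dg (j : ℕ) (e : E) : ℕ :=
  E.rec (fun i => cond (Nat.beq i j) 1 0) (fun _ => 0)
    (fun _ _ a b => cond (Nat.ble a b) b a) (fun _ _ a b => Nat.add a b) (fun _ a => a)
    (fun _ k a => Nat.mul k a) e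

/-- all variables are smaller than `r` -/
def bd (r : ℕ) (e : E) : Bool :=
  E.rec (fun i => Nat.ble (Nat.succ i) r) (fun _ => true) (fun _ _ a b => and a b)
    (fun _ _ a b => and a b) (fun _ a => a) (fun _ _ a => a) e

theorem dg_add (j : ℕ) (a b : E) : (add a b).dg j = max (a.dg j) (b.dg j) := by
  change cond (Nat.ble (a.dg j) (b.dg j)) (b.dg j) (a.dg j) = _
  rcases h : Nat.ble (a.dg j) (b.dg j) with _ | _
  · have : ¬ a.dg j ≤ b.dg j := fun h' => by simp [Nat.ble_eq_true_of_le h'] at h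
    exact (max_eq_left (not_le.1 this).le).symm
  · exact (max_eq_right (Nat.le_of_ble_eq_true h)).symm

theorem degreeOf_es {S : Type*} [CommSemiring S] (m : S) (j : ℕ) (e : E) :
    degreeOf j (e.es (C m) X : MvPolynomial ℕ S) ≤ e.dg j := by
  induction e with
  | v i =>
    change degreeOf j (X i) ≤ cond (Nat.beq i j) 1 0
    rcases h : Nat.beq i j with _ | _
    · have : j ≠ i := fun h' => by simp [h'] at h
      exact (degreeOf_X_of_ne this).le
    · exact (degreeOf_le_totalDegree _ _).trans (totalDegree_monomial_le _ _ |>.trans (by simp))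
  | n c => exact (degreeOf_C (c : S) j).le
  | add a b ha hb =>
    rw [dg_add]
    exact (degreeOf_add_le _ _ _).trans (max_le_max ha hb)
  | mul a b ha hb => exact (degreeOf_mul_le _ _ _).trans (add_le_add ha hb)
  | neg a ha => exact (degreeOf_C_mul_le _ _ _).trans ha
  | pow a k ha => exact (degreeOf_pow_le _ _ _).trans (Nat.mul_le_mul_left k ha)

theorem dg_of_bd {r j : ℕ} (hj : r ≤ j) {e : E} (h : e.bd r = true) : e.dg j = 0 := by
  induction e with
  | v i =>
    have h1 : i + 1 ≤ r := Nat.le_of_ble_eq_true h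
    change cond (Nat.beq i j) 1 0 = 0
    rcases h2 : Nat.beq i j with _ | _
    · rfl
    · have := Nat.eq_of_beq_eq_true h2
      omega
  | n c => rfl
  | add a b ha hb =>
    have h1 : (a.bd r && b.bd r) = true := h
    rw [Bool.and_eq_true] at h1
    rw [dg_add, ha h1.1, hb h1.2, max_self]
  | mul a b ha hb =>
    have h1 : (a.bd r && b.bd r) = true := h
    rw [Bool.and_eq_true] at h1
    change a.dg j + b.dg j = 0
    rw [ha h1.1, hb h1.2]
  | neg a ha => exact ha h
  | pow a k ha =>
    change k * a.dg j = 0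
    rw [ha h, mul_zero]

end E

/-! ### mixed radix codes -/

/-- the weight of the variable `i` -/
def rad (ds : List ℕ) : ℕ → ℕ :=
  List.rec (fun _ => 1) (fun d _ r i => Nat.rec 1 (fun j _ => Nat.mul d (r j)) i) ds

theorem rad_zero (ds : List ℕ) : rad ds 0 = 1 := by cases ds <;> rfl

theorem rad_succ (ds : List ℕ) (i : ℕ) : rad ds (i + 1) = rad ds i * ds.getD i 1 := by
  induction ds generalizing i with
  | nil => rfl
  | cons d ds ih =>
    cases i with
    | zero =>
      change d * rad ds 0 = 1 * d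
      rw [rad_zero, mul_comm]
    | succ i =>
      change d * rad ds (i + 1) = d * rad ds i * ds.getD i 1
      rw [ih, mul_assoc]

theorem sum_lt_rad (ds : List ℕ) {m : ℕ → ℕ} (h : ∀ i, m i < ds.getD i 1) (r : ℕ) :
    ∑ i ∈ range r, m i * rad ds i < rad ds r := by
  induction r with
  | zero => simp [rad_zero]
  | succ r ih =>
    rw [sum_range_succ, rad_succ]
    have := h r
    nlinarith

theorem code_inj (ds : List ℕ) {m m' : ℕ → ℕ} (h : ∀ i, m i < ds.getD i 1)
    (h' : ∀ i, m' i < ds.getD i 1) (r : ℕ)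
    (he : ∑ i ∈ range r, m i * rad ds i = ∑ i ∈ range r, m' i * rad ds i) :
    ∀ i < r, m i = m' i := by
  induction r with
  | zero => simp
  | succ r ih =>
    rw [sum_range_succ, sum_range_succ] at he
    have h1 := sum_lt_rad ds h r
    have h2 := sum_lt_rad ds h' r
    have h3 : m r = m' r := by
      rcases lt_trichotomy (m r) (m' r) with h4 | h4 | h4
      · have := Nat.mul_le_mul_right (rad ds r) (Nat.succ_le_of_lt h4)
        rw [Nat.succ_mul] at this
        omega
      · exact h4
      · have := Nat.mul_le_mul_right (rad ds r) (Nat.succ_le_of_lt h4)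
        rw [Nat.succ_mul] at this
        omega
    intro i hi
    rcases Nat.lt_succ_iff_lt_or_eq.1 hi with h4 | rfl
    · exact ih (by rw [h3] at he; omega) i h4
    · exact h3

/-- the code of a monomial -/
def code (ds : List ℕ) (m : ℕ →₀ ℕ) : ℕ := m.sum fun i k => rad ds i * k

theorem code_injOn (ds : List ℕ) :
    Set.InjOn (code ds) {m : ℕ →₀ ℕ | ∀ i, m i < ds.getD i 1} := by
  intro m h m' h' he
  obtain ⟨r, hr⟩ := (m.support ∪ m'.support).exists_nat_subset_range
  have e : ∀ μ : ℕ →₀ ℕ, μ.support ⊆ range r → code ds μ = ∑ i ∈ range r, μ i * rad ds i :=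
    fun μ hμ => by
      rw [code, Finsupp.sum_of_support_subset μ hμ _ (by simp)]
      exact sum_congr rfl fun i _ => mul_comm _ _
  rw [e m (subset_union_left.trans hr), e m' (subset_union_right.trans hr)] at he
  ext i
  by_cases hi : i < r
  · exact code_inj ds h h' r he i hi
  · have h1 : i ∉ m.support ∪ m'.support := fun h2 => hi (mem_range.1 (hr h2))
    simp only [mem_union, Finsupp.mem_support_iff, not_or, not_not] at h1
    rw [h1.1, h1.2]

theorem eval_kron {S : Type*} [CommSemiring S] (ds : List ℕ) (W : S) (f : MvPolynomial ℕ S) :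
    eval (fun i => W ^ rad ds i) f = ∑ m ∈ f.support, f.coeff m * W ^ code ds m := by
  rw [eval_eq]
  refine sum_congr rfl fun m _ => ?_
  simp only [← pow_mul, prod_pow_eq_pow_sum]
  rfl

/-- the degrees are smaller than the radices -/
def dgs (e : E) (ds : List ℕ) : ℕ → Bool :=
  List.rec (fun j => e.bd j)
    (fun d _ r j => and (Nat.ble (Nat.succ (e.dg j)) d) (r (Nat.succ j))) ds

theorem dg_lt {e : E} {ds : List ℕ} {j : ℕ} (h : dgs e ds j = true) (i : ℕ) :
    e.dg (j + i) < ds.getD i 1 := by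
  induction ds generalizing j i with
  | nil => simp [E.dg_of_bd (Nat.le_add_right j i) h]
  | cons d ds ih =>
    have h1 : (Nat.ble (e.dg j + 1) d && dgs e ds (j + 1)) = true := h
    rw [Bool.and_eq_true] at h1
    cases i with
    | zero => exact Nat.le_of_ble_eq_true h1.1
    | succ i => simpa [add_assoc, add_comm 1 i] using ih h1.2 i

theorem injOn_supp {S : Type*} [CommSemiring S] (m : S) {e : E} {ds : List ℕ}
    (h : dgs e ds 0 = true) :
    Set.InjOn (code ds) (e.es (C m) X : MvPolynomial ℕ S).support := by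
  refine Set.InjOn.mono ?_ (code_injOn ds)
  intro μ hμ i
  exact ((monomial_le_degreeOf i hμ).trans (E.degreeOf_es m i e)).trans_lt
    (by simpa using dg_lt h i)

/-! ### digits -/

theorem digit_eq {ι : Type*} {s : Finset ι} {c cd : ι → ℕ} (hi : Set.InjOn cd s) {W : ℕ}
    (hW : ∑ m ∈ s, c m < W) {μ : ι} (hμ : μ ∈ s) :
    (∑ m ∈ s, c m * W ^ cd m) / W ^ cd μ % W = c μ := by
  classical
  have hW0 : 0 < W := by omega
  have h1 : c μ < W := (single_le_sum (fun _ _ => Nat.zero_le _) hμ).trans_lt hW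
  set lo := ∑ m ∈ s with cd m < cd μ, c m * W ^ cd m with hlo
  set up := ∑ m ∈ s with cd μ < cd m, c m * W ^ (cd m - cd μ - 1) with hup
  have e : ∑ m ∈ s, c m * W ^ cd m = lo + W ^ cd μ * (c μ + W * up) := by
    have e1 : W ^ cd μ * c μ = ∑ m ∈ s, if m = μ then c m * W ^ cd m else 0 := by
      rw [sum_ite_eq' s μ, if_pos hμ, mul_comm]
    rw [mul_add, e1, hlo, hup, sum_filter, sum_filter, mul_sum, mul_sum, ← sum_add_distrib,
      ← sum_add_distrib]
    refine sum_congr rfl fun m hm => ?_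
    rcases lt_trichotomy (cd m) (cd μ) with h | h | h
    · have : m ≠ μ := fun h' => by simp [h'] at h
      simp [h, this, h.not_gt]
    · obtain rfl := hi hm hμ h
      simp
    · have : m ≠ μ := fun h' => by simp [h'] at h
      obtain ⟨t, ht⟩ := Nat.exists_eq_add_of_lt h
      simp only [this, if_false, zero_add, ht]
      rw [show cd μ + t + 1 - cd μ - 1 = t by omega]
      simp only [show ¬ cd μ + t + 1 < cd μ by omega, show cd μ < cd μ + t + 1 by omega, if_true,
        if_false]
      ring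
  have h2 : lo < W ^ cd μ := by
    rcases Nat.eq_zero_or_pos (cd μ) with h0 | h0
    · simp [hlo, h0]
    · obtain ⟨t, ht⟩ := Nat.exists_eq_add_of_lt h0
      calc lo ≤ ∑ m ∈ s with cd m < cd μ, c m * W ^ t := sum_le_sum fun m hm =>
            Nat.mul_le_mul_left _ (Nat.pow_le_pow_right hW0 (by have := (mem_filter.1 hm).2; omega))
        _ ≤ (∑ m ∈ s, c m) * W ^ t := by
            rw [← sum_mul]
            exact Nat.mul_le_mul_right _ (sum_le_sum_of_subset (filter_subset _ _))
        _ < W * W ^ t := Nat.mul_lt_mul_of_pos_right hW (by positivity)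
        _ = W ^ cd μ := by rw [ht, zero_add, pow_succ']
  rw [e, Nat.add_mul_div_left _ _ (by positivity), Nat.div_eq_of_lt h2, zero_add,
    Nat.add_mul_mod_self_left, Nat.mod_eq_of_lt h1]

/-- all digits in base `2 ^ w` are divisible by `p` -/
def chk (p w k : ℕ) : ℕ → Bool :=
  Nat.rec (fun N => and (Nat.beq (Nat.shiftRight N w) 0) (Nat.beq (Nat.mod N p) 0))
    (fun j r N => or (Nat.beq N 0)
      (and (r (Nat.mod N (Nat.shiftLeft 1 (Nat.shiftLeft w j))))
        (r (Nat.shiftRight N (Nat.shiftLeft w j))))) k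

theorem dvd_of_chk {p w k N : ℕ} (h : chk p w k N = true) (j : ℕ) :
    p ∣ N / (2 ^ w) ^ j % 2 ^ w := by
  induction k generalizing N j with
  | zero =>
    have h1 : (Nat.beq (N >>> w) 0 && Nat.beq (N % p) 0) = true := h
    simp only [Bool.and_eq_true, Nat.beq_eq, Nat.shiftRight_eq_div_pow] at h1
    have h2 : N < 2 ^ w := by simpa [Nat.div_eq_zero_iff] using h1.1
    cases j with
    | zero => simpa [Nat.mod_eq_of_lt h2] using Nat.dvd_of_mod_eq_zero h1.2
    | succ j => simp [pow_succ', ← Nat.div_div_eq_div_mul, h1.1]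
  | succ k ih =>
    have h1 : (Nat.beq N 0 || (chk p w k (N % (1 <<< (w <<< k))) && chk p w k (N >>> (w <<< k))))
        = true := h
    simp only [Bool.or_eq_true, Bool.and_eq_true, Nat.beq_eq, Nat.shiftRight_eq_div_pow,
      Nat.shiftLeft_eq, one_mul, pow_mul] at h1
    rcases h1 with rfl | ⟨h1, h2⟩
    · simp
    · rcases lt_or_ge j (2 ^ k) with hj | hj
      · have h3 := ih h1 j
        obtain ⟨t, ht⟩ := Nat.exists_eq_add_of_lt hj
        rwa [ht, add_assoc, pow_add, Nat.mod_mul_right_div_self, pow_succ',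
          Nat.mod_mul_right_mod] at h3
      · obtain ⟨t, rfl⟩ := Nat.exists_eq_add_of_le hj
        have h3 := ih h2 t
        rwa [Nat.div_div_eq_div_mul, ← pow_add] at h3

/-- the point of evaluation -/
def kp (w : ℕ) (ds : List ℕ) (i : ℕ) : ℕ := Nat.shiftLeft 1 (Nat.mul w (rad ds i))

theorem kp_eq (w : ℕ) (ds : List ℕ) : kp w ds = fun i => (2 ^ w) ^ rad ds i := by
  ext i
  change 1 <<< (w * rad ds i) = _
  rw [Nat.shiftLeft_eq, one_mul, pow_mul]

namespace E

/-- the test modulo `p + 1` -/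
def okP (p w k : ℕ) (ds : List ℕ) (e : E) : Bool :=
  dgs e ds 0 && Nat.beq (Nat.shiftRight (e.eN p fun _ => 1) w) 0 &&
    chk (Nat.succ p) w k (e.eN p (kp w ds))

/-- the exact test -/
def okZ (w : ℕ) (ds : List ℕ) (e : E) : Bool :=
  dgs e ds 0 && Nat.beq (Nat.shiftRight (e.eN 1 fun _ => 1) w) 0 &&
    Nat.beq (Int.natAbs (e.eZ (kp w ds))) 0

theorem eval_es {S : Type*} [CommSemiring S] (m : S) (y : ℕ → S) (e : E) :
    eval y (e.es (C m) X : MvPolynomial ℕ S) = e.es m y := by
  simpa using map_es (eval y) (C m) X e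

/-- **soundness modulo `p + 1`** -/
theorem ev_of_okP {p w k : ℕ} {ds : List ℕ} {e : E} (h : e.okP p w k ds = true) {R : Type*}
    [CommRing R] (hp : ((p + 1 : ℕ) : R) = 0) (x : ℕ → R) : e.ev x = 0 := by
  simp only [okP, Bool.and_eq_true, Nat.beq_eq, eN_eq, kp_eq] at h
  obtain ⟨⟨h1, h2⟩, h3⟩ := h
  set f : MvPolynomial ℕ ℕ := e.es (C p) X with hf
  have h4 : ∑ m ∈ f.support, f.coeff m < 2 ^ w := by
    have h5 : e.es p (fun _ => 1) / 2 ^ w = 0 := by rw [← Nat.shiftRight_eq_div_pow]; exact h2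
    rw [← eval_es, ← hf, eval_eq] at h5
    simpa [Nat.div_eq_zero_iff] using h5
  have h5 : ∀ m ∈ f.support, p + 1 ∣ f.coeff m := fun m hm => by
    have h6 := dvd_of_chk h3 (code ds m)
    rwa [← eval_es, eval_kron, digit_eq (injOn_supp p h1) h4 hm] at h6
  have h6 : eval₂Hom (Nat.castRingHom R) x f = 0 := by
    rw [coe_eval₂Hom, eval₂_eq]
    refine sum_eq_zero fun m hm => ?_
    obtain ⟨t, ht⟩ := h5 m hm
    rw [ht, map_mul, eq_natCast, hp, zero_mul, zero_mul]
  have h7 : (p : R) = -1 := by rwa [Nat.cast_succ, add_eq_zero_iff_eq_neg] at hp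
  rw [hf, map_es] at h6
  simpa [h7, es_neg_one] using h6

theorem natAbs_coeff_le (e : E) (m : ℕ →₀ ℕ) :
    ((e.es (C (-1)) X : MvPolynomial ℕ ℤ).coeff m).natAbs ≤
      (e.es (C 1) X : MvPolynomial ℕ ℕ).coeff m := by
  classical
  have hm : ∀ (f g : MvPolynomial ℕ ℤ) (f' g' : MvPolynomial ℕ ℕ),
      (∀ m, (f.coeff m).natAbs ≤ f'.coeff m) → (∀ m, (g.coeff m).natAbs ≤ g'.coeff m) →
      ∀ m, ((f * g).coeff m).natAbs ≤ (f' * g').coeff m := fun f g f' g' hf hg m => by
    rw [coeff_mul, coeff_mul]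
    refine (Int.natAbs_sum_le _ _).trans (sum_le_sum fun y _ => ?_)
    rw [Int.natAbs_mul]
    exact Nat.mul_le_mul (hf _) (hg _)
  have hc : ∀ (c : ℤ) (c' : ℕ), c.natAbs ≤ c' → ∀ m : ℕ →₀ ℕ,
      ((C c : MvPolynomial ℕ ℤ).coeff m).natAbs ≤ (C c' : MvPolynomial ℕ ℕ).coeff m :=
    fun c c' h m => by
      rw [coeff_C, coeff_C]
      split_ifs
      · exact h
      · rfl
  induction e generalizing m with
  | v i =>
    simp only [es, coeff_X]
    split_ifs <;> rfl
  | n c => exact hc c c (by simp) m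
  | add a b ha hb =>
    simp only [es, coeff_add]
    exact (Int.natAbs_add_le _ _).trans (add_le_add (ha m) (hb m))
  | mul a b ha hb => exact hm _ _ _ _ ha hb m
  | neg a ha => exact hm _ _ _ _ (hc (-1) 1 le_rfl) ha m
  | pow a k ha =>
    simp only [es]
    induction k generalizing m with
    | zero => exact hc 1 1 le_rfl m
    | succ k ih =>
      rw [pow_succ, pow_succ]
      exact hm _ _ _ _ ih ha m

/-- **soundness of the exact test** -/
theorem ev_of_okZ {w : ℕ} {ds : List ℕ} {e : E} (h : e.okZ w ds = true) {R : Type*} [CommRing R]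
    (x : ℕ → R) : e.ev x = 0 := by
  simp only [okZ, Bool.and_eq_true, Nat.beq_eq, eN_eq, eZ_eq, kp_eq, Int.natAbs_eq_zero] at h
  obtain ⟨⟨h1, h2⟩, h3⟩ := h
  set f : MvPolynomial ℕ ℤ := e.es (C (-1)) X with hf
  have h4 : ∀ m, (f.coeff m).natAbs < 2 ^ w := fun m => by
    have h5 : e.es 1 (fun _ => 1) / 2 ^ w = 0 := by rw [← Nat.shiftRight_eq_div_pow]; exact h2
    rw [← eval_es, eval_eq] at h5
    refine (e.natAbs_coeff_le m).trans_lt ?_
    by_cases hm : m ∈ (e.es (C 1) X : MvPolynomial ℕ ℕ).support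
    · exact (single_le_sum (f := fun m => (e.es (C 1) X : MvPolynomial ℕ ℕ).coeff m)
        (fun _ _ => Nat.zero_le _) hm).trans_lt (by simpa [Nat.div_eq_zero_iff] using h5)
    · rw [notMem_support_iff.1 hm]
      positivity
  have h5 : ∑ m ∈ f.support, f.coeff m * ((2 : ℤ) ^ w) ^ code ds m = 0 := by
    rw [← eval_kron, hf, eval_es, es_neg_one, ← h3]
    simp
  have h6 : f = 0 := by
    by_contra h0
    obtain ⟨μ, hμ, hmin⟩ := f.support.exists_min_image (code ds) (support_nonempty.2 h0)
    have h7 : ((2 : ℤ) ^ w) ^ (code ds μ + 1) ∣ f.coeff μ * ((2 : ℤ) ^ w) ^ code ds μ := by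
      classical
      rw [← add_sum_erase _ _ hμ, add_eq_zero_iff_eq_neg] at h5
      rw [h5, dvd_neg]
      refine dvd_sum fun m hm => (pow_dvd_pow _ ?_).mul_left _
      obtain ⟨h8, h9⟩ := mem_erase.1 hm
      exact lt_of_le_of_ne (hmin m h9) fun h10 => h8 (injOn_supp (-1) h1 h9 hμ h10.symm)
    rw [pow_succ', mul_dvd_mul_iff_right (by positivity)] at h7
    refine mem_support_iff.1 hμ (Int.eq_zero_of_dvd_of_natAbs_lt_natAbs h7 ?_)
    simpa [Int.natAbs_pow] using h4 μ
  have h7 := map_es (eval₂Hom (Int.castRingHom R) x) (C (-1)) X e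
  rw [← hf, h6, map_zero] at h7
  simpa [es_neg_one] using h7.symm

end E

/-! ### packed cofactors -/

/-- binomial coefficients `(r + d).choose r` -/
def bin (r : ℕ) : ℕ → ℕ :=
  Nat.rec (fun _ => 1)
    (fun j f d => Nat.div (Nat.mul (f d) (Nat.add d (Nat.succ j))) (Nat.succ j)) r

/-- a polynomial of degree `≤ d` in the variables `o, …, o + r - 1`, `b` bits per coefficient -/
def dec (b o r : ℕ) : ℕ → ℕ → E :=
  Nat.rec (fun _ N => E.n N)
    (fun j f d => Nat.rec (fun N => E.n N)
      (fun i g N => cond (Nat.beq N 0) (E.n 0)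
        (E.add (f (Nat.succ i) (Nat.mod N (Nat.shiftLeft 1 (Nat.mul b (bin j (Nat.succ i))))))
          (E.mul (E.v (Nat.add o j)) (g (Nat.shiftRight N (Nat.mul b (bin j (Nat.succ i))))))))
      d) r

/-- a polynomial in the variable `i` of degree `≤ d` with coefficients `f (block of s bits)` -/
def decU (i s : ℕ) (f : ℕ → E) (d : ℕ) : ℕ → E :=
  Nat.rec f (fun _ g N => cond (Nat.beq N 0) (E.n 0)
    (E.add (f (Nat.mod N (Nat.shiftLeft 1 s))) (E.mul (E.v i) (g (Nat.shiftRight N s))))) d

/-- `∑ c_j * f_j`, where `c_j = D (block number j of s bits)` -/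
def cmb (D : ℕ → E) (s : ℕ) (fs : List E) : ℕ → E :=
  List.rec (fun _ => E.n 0) (fun f _ g N =>
    E.add (E.mul (D (Nat.mod N (Nat.shiftLeft 1 s))) f) (g (Nat.shiftRight N s))) fs

theorem ev_cmb {R : Type*} [CommRing R] {x : ℕ → R} (D : ℕ → E) (s : ℕ) {fs : List E}
    (h : ∀ f ∈ fs, f.ev x = 0) (N : ℕ) : (cmb D s fs N).ev x = 0 := by
  induction fs generalizing N with
  | nil => exact Nat.cast_zero
  | cons f fs ih =>
    change _ * f.ev x + (cmb D s fs _).ev x = 0
    rw [h f (by simp), ih fun g hg => h g (by simp [hg]), mul_zero, add_zero]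

end Crest.Agent.X262.Cert63
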