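import Crest.Agent.X262.Cert63.Kit

/-!
# Row 262, G4 / CERT (helper63), part 2: expressions as polynomials, determinants, lifting

* `E.z`, `E.sm`, `E.sb`, `E.der`, `E.hm`, `E.mv` : integers, sums, substitution, derivatives,
  homogeneity, the polynomial of an expression;
* `detE` : determinants;
* `lift` : a homogeneous system without solution modulo `p` has no complex solution.
-/

set_option autoImplicit false

open MvPolynomial Finset

noncomputable section

namespace Crest.Agent.X262.Cert63

/-- extension by zero -/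
def ext {R : Type*} [Zero R] {n : ℕ} (x : Fin n → R) (i : ℕ) : R := if h : i < n then x ⟨i, h⟩ else 0

@[simp] theorem ext_fin {R : Type*} [Zero R] {n : ℕ} (x : Fin n → R) (i : Fin n) :
    ext x i = x i := dif_pos i.2

theorem ext_lt {R : Type*} [Zero R] {n : ℕ} (x : Fin n → R) {i : ℕ} (h : i < n) :
    ext x i = x ⟨i, h⟩ := dif_pos h

theorem ext_ge {R : Type*} [Zero R] {n : ℕ} (x : Fin n → R) {i : ℕ} (h : n ≤ i) : ext x i = 0 :=
  dif_neg h.not_gt

theorem map_ext {R S : Type*} [CommRing R] [CommRing S] (φ : R →+* S) {n : ℕ} (x : Fin n → R) :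
    (fun i => φ (ext x i)) = ext fun i => φ (x i) := by
  ext i
  unfold ext
  split_ifs <;> simp

namespace E

/-- integers -/
def z (c : ℤ) : E := Int.rec (fun a => n a) (fun a => neg (n (Nat.succ a))) c

/-- `∑ i < r, f i` -/
def sm (f : ℕ → E) (r : ℕ) : E := Nat.rec (n 0) (fun i s => add s (f i)) r

/-- substitution -/
def sb (σ : ℕ → E) (e : E) : E :=
  E.rec σ n (fun _ _ a b => add a b) (fun _ _ a b => mul a b) (fun _ a => neg a)
    (fun _ k a => pow a k) e

/-- derivative -/
def der (j : ℕ) (e : E) : E :=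
  E.rec (fun i => cond (Nat.beq i j) (n 1) (n 0)) (fun _ => n 0) (fun _ _ a b => add a b)
    (fun a b a' b' => add (mul a' b) (mul a b')) (fun _ a => neg a)
    (fun a k a' => mul (mul (n k) (pow a (Nat.pred k))) a') e

/-- visibly zero -/
def iz (e : E) : Bool :=
  E.rec (fun _ => false) (fun c => Nat.beq c 0) (fun _ _ a b => and a b) (fun _ _ a b => or a b)
    (fun _ a => a) (fun _ _ _ => false) e

/-- the degree -/
def td (e : E) : ℕ :=
  E.rec (fun _ => 1) (fun _ => 0) (fun a _ d d' => cond (iz a) d' d) (fun _ _ a b => Nat.add a b)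
    (fun _ a => a) (fun _ k a => Nat.mul a k) e

/-- visibly homogeneous -/
def hm (e : E) : Bool :=
  E.rec (fun _ => true) (fun _ => true)
    (fun a b s t => and (and s t) (or (iz a) (or (iz b) (Nat.beq (td a) (td b)))))
    (fun _ _ a b => and a b) (fun _ a => a) (fun _ _ a => a) e

variable {R : Type*} [CommRing R] (x : ℕ → R)

@[simp] theorem ev_z (c : ℤ) : (z c).ev x = c := by
  cases c with
  | ofNat a => simp [z]
  | negSucc a => simp [z, Int.negSucc_eq]

@[simp] theorem ev_sm (f : ℕ → E) (r : ℕ) : (sm f r).ev x = ∑ i ∈ range r, (f i).ev x := by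
  induction r with
  | zero => simp [sm]
  | succ r ih => rw [sum_range_succ, ← ih]; rfl

@[simp] theorem ev_sb (σ : ℕ → E) (e : E) : (sb σ e).ev x = e.ev fun i => (σ i).ev x := by
  induction e with
  | v i => rfl
  | n c => rfl
  | add a b ha hb => exact congrArg₂ (· + ·) ha hb
  | mul a b ha hb => exact congrArg₂ (· * ·) ha hb
  | neg a ha => exact congrArg (fun t : R => -t) ha
  | pow a k ha => exact congrArg (· ^ k) ha

theorem ev_of_iz {e : E} (h : e.iz = true) : e.ev x = 0 := by
  induction e with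
  | v i => cases h
  | n c => simp [Nat.eq_of_beq_eq_true h]
  | add a b ha hb =>
    have h1 : (a.iz && b.iz) = true := h
    rw [Bool.and_eq_true] at h1
    rw [ev_add', ha h1.1, hb h1.2, add_zero]
  | mul a b ha hb =>
    have h1 : (a.iz || b.iz) = true := h
    rw [Bool.or_eq_true] at h1
    rcases h1 with h1 | h1
    · rw [ev_mul', ha h1, zero_mul]
    · rw [ev_mul', hb h1, mul_zero]
  | neg a ha => rw [ev_neg', ha h, neg_zero]
  | pow a k ha => cases h

/-- induction on homogeneous expressions -/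
theorem hm_ind {p : R → ℕ → Prop} (h0 : ∀ d, p 0 d) (hv : ∀ i, p (x i) 1) (hn : ∀ c : ℕ, p c 0)
    (ha : ∀ a b d, p a d → p b d → p (a + b) d) (hg : ∀ a d, p a d → p (-a) d)
    (hm' : ∀ a b d d', p a d → p b d' → p (a * b) (d + d'))
    {e : E} (h : e.hm = true) : p (e.ev x) e.td := by
  induction e with
  | v i => exact hv i
  | n c => exact hn c
  | add a b iha ihb =>
    have h1 : (a.hm && b.hm && (a.iz || (b.iz || Nat.beq a.td b.td))) = true := h
    simp only [Bool.and_eq_true, Bool.or_eq_true, Nat.beq_eq] at h1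
    change p (a.ev x + b.ev x) (cond a.iz b.td a.td)
    rcases h2 : a.iz with _ | _
    · rcases h1.2 with h3 | h3 | h3
      · simp [h2] at h3
      · exact ha _ _ _ (iha h1.1.1) (ev_of_iz x h3 ▸ h0 _)
      · exact ha _ _ _ (iha h1.1.1) (h3 ▸ ihb h1.1.2)
    · exact ha _ _ _ (ev_of_iz x h2 ▸ h0 _) (ihb h1.1.2)
  | mul a b iha ihb =>
    have h1 : (a.hm && b.hm) = true := h
    rw [Bool.and_eq_true] at h1
    exact hm' _ _ _ _ (iha h1.1) (ihb h1.2)
  | neg a iha => exact hg _ _ (iha h)
  | pow a k iha =>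
    change p (a.ev x ^ k) (a.td * k)
    induction k with
    | zero => simpa using hn 1
    | succ k ih => rw [pow_succ, Nat.mul_succ]; exact hm' _ _ _ _ (ih h) (iha h)

theorem ev_smul {e : E} (h : e.hm = true) (c : R) :
    e.ev (fun i => c * x i) = c ^ e.td * e.ev x := by
  have h1 := hm_ind (fun i => ((x i, c * x i) : R × R)) (p := fun u d => u.2 = c ^ d * u.1)
    (by simp) (by simp) (by simp) (fun a b d ha hb => by simp [ha, hb, mul_add])
    (fun a d ha => by simp [ha]) (fun a b d d' ha hb => by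
      simp only [Prod.snd_mul, Prod.fst_mul, ha, hb]
      ring) h
  have h2 := map_ev (fun i => ((x i, c * x i) : R × R)) (RingHom.fst R R) e
  have h3 := map_ev (fun i => ((x i, c * x i) : R × R)) (RingHom.snd R R) e
  simp only [RingHom.coe_fst, RingHom.coe_snd] at h2 h3
  rw [← h2, ← h3, h1]

/-- the polynomial of an expression -/
def mv (r : ℕ) (e : E) : MvPolynomial (Fin r) ℂ := e.ev (ext X)

theorem aeval_mv {A : Type*} [CommRing A] [Algebra ℂ A] {r : ℕ} (y : Fin r → A) (e : E) :
    aeval y (mv r e) = e.ev (ext y) := by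
  have h := map_ev (ext X) (aeval y : MvPolynomial (Fin r) ℂ →ₐ[ℂ] A).toRingHom e
  rw [map_ext] at h
  simpa [mv] using h

theorem eval_mv {r : ℕ} (y : Fin r → ℂ) (e : E) : eval y (mv r e) = e.ev (ext y) := by
  rw [← aeval_mv, aeval_eq_eval]

theorem hom_mv (r : ℕ) {e : E} (h : e.hm = true) : (mv r e).IsHomogeneous e.td := by
  refine hm_ind (ext X) (p := fun u d => IsHomogeneous u d) (isHomogeneous_zero _ _) (fun i => ?_)
    (fun c => isHomogeneous_C _ (c : ℂ)) (fun _ _ _ => .add) (fun _ _ => .neg)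
    (fun _ _ _ _ => .mul) h
  unfold ext
  split_ifs
  · exact isHomogeneous_X _ _
  · exact isHomogeneous_zero _ _ _

theorem pderiv_mv {r : ℕ} (j : Fin r) (e : E) : pderiv j (mv r e) = mv r (der j e) := by
  induction e with
  | v i =>
    change pderiv j (ext X i) = ev (ext X) (cond (Nat.beq i j) (n 1) (n 0))
    rcases h : Nat.beq i j with _ | _
    · have h1 : i ≠ j := Nat.ne_of_beq_eq_false h
      unfold ext
      split_ifs with h2
      · rw [pderiv_X_of_ne fun h3 => h1 (congrArg Fin.val h3)]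
        simp
      · simp
    · rw [Nat.eq_of_beq_eq_true h]
      simp
  | n c => simp [mv, der]
  | add a b ha hb => exact (map_add _ _ _).trans (congrArg₂ (· + ·) ha hb)
  | mul a b ha hb =>
    change pderiv j (mv r a * mv r b) = mv r (der j a) * mv r b + mv r a * mv r (der j b)
    rw [pderiv_mul, ha, hb]
  | neg a ha => exact (map_neg _ _).trans (congrArg (fun t => -t) ha)
  | pow a k ha =>
    change pderiv j (mv r a ^ k) = (k : MvPolynomial (Fin r) ℂ) * mv r a ^ (k - 1) * mv r (der j a)
    rw [pderiv_pow, ha]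

end E

/-! ### determinants -/

/-- expansion along the first row -/
def detE (k : ℕ) : (ℕ → ℕ → E) → E :=
  Nat.rec (fun _ => E.n 1) (fun m d M => E.sm (fun j => cond (E.iz (M 0 j)) (E.n 0)
    (E.mul (cond (Nat.beq (Nat.mod j 2) 0) (M 0 j) (E.neg (M 0 j)))
      (d fun a b => M (Nat.succ a) (cond (Nat.ble j b) (Nat.succ b) b)))) (Nat.succ m)) k

theorem ev_detE {R : Type*} [CommRing R] (x : ℕ → R) (k : ℕ) (M : ℕ → ℕ → E) :
    (detE k M).ev x = (Matrix.of fun a b : Fin k => (M a b).ev x).det := by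
  induction k generalizing M with
  | zero => simp [detE]
  | succ k ih =>
    rw [Matrix.det_succ_row_zero]
    change E.ev x (E.sm (fun j => cond (E.iz (M 0 j)) (E.n 0)
      (E.mul (cond (Nat.beq (Nat.mod j 2) 0) (M 0 j) (E.neg (M 0 j)))
        (detE k fun a b => M (Nat.succ a) (cond (Nat.ble j b) (Nat.succ b) b)))) (k + 1)) = _
    rw [E.ev_sm, ← Fin.sum_univ_eq_sum_range (fun j => E.ev x (cond (E.iz (M 0 j)) (E.n 0)
      (E.mul (cond (Nat.beq (Nat.mod j 2) 0) (M 0 j) (E.neg (M 0 j)))
        (detE k fun a b => M (Nat.succ a) (cond (Nat.ble j b) (Nat.succ b) b)))))]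
    refine sum_congr rfl fun j _ => ?_
    rcases h : E.iz (M 0 j) with _ | _
    · rw [cond_false, E.ev_mul', ih]
      congr 1
      · rcases Nat.even_or_odd' (j : ℕ) with ⟨t, ht | ht⟩
        · have : Nat.mod j 2 = 0 := by change (j : ℕ) % 2 = 0; omega
          rw [this, Even.neg_one_pow ⟨t, by omega⟩]
          simp
        · have : Nat.mod j 2 = 1 := by change (j : ℕ) % 2 = 1; omega
          rw [this, Odd.neg_one_pow ⟨t, by omega⟩]
          simp [Nat.beq]
      · congr 1
        ext a b
        simp only [Matrix.of_apply, Matrix.submatrix_apply, Fin.val_succ, Fin.succAbove]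
        congr 2
        split_ifs with h1
        · have h2 : (b : ℕ) < j := h1
          rw [show Nat.ble j b = false from
            Bool.eq_false_iff.2 fun h3 => (Nat.le_of_ble_eq_true h3).not_gt h2]
          rfl
        · have h2 : ¬ (b : ℕ) < j := h1
          rw [Nat.ble_eq_true_of_le (not_lt.1 h2)]
          rfl
    · simp [E.ev_of_iz x h]

/-- the minor with rows `I` and columns `J` -/
def mnr (k : ℕ) (M : ℕ → ℕ → E) (IJ : List ℕ × List ℕ) : E :=
  detE k fun a b => M (IJ.1.getD a 0) (IJ.2.getD b 0)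

/-- the columns `J` together with one more column `j` are all the columns -/
def Cov (n k : ℕ) (J : List ℕ) : Prop := ∃ j < n, ∀ c < n, c = j ∨ ∃ b < k, J.getD b 0 = c

instance (n k : ℕ) (J : List ℕ) : Decidable (Cov n k J) := by unfold Cov; infer_instance

/-- two independent solutions kill the minors of codimension one -/
theorem mnr_of_ker {K : Type*} [Field K] {x : ℕ → K} {k : ℕ} {M : ℕ → ℕ → E}
    {IJ : List ℕ × List ℕ} (hJ : Cov (k + 1) k IJ.2) {u u' : ℕ → K}
    (hu : ∀ a < k, ∑ c ∈ range (k + 1), (M (IJ.1.getD a 0) c).ev x * u c = 0)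
    (hu' : ∀ a < k, ∑ c ∈ range (k + 1), (M (IJ.1.getD a 0) c).ev x * u' c = 0)
    (h : ¬ ∀ i < k + 1, ∀ j < k + 1, u i * u' j = u j * u' i) : (mnr k M IJ).ev x = 0 := by
  classical
  obtain ⟨j, hj, hc⟩ := hJ
  obtain ⟨w, hw, hw0, c, hck, hwc⟩ : ∃ w : ℕ → K,
      (∀ a < k, ∑ c ∈ range (k + 1), (M (IJ.1.getD a 0) c).ev x * w c = 0) ∧ w j = 0 ∧
        ∃ c < k + 1, w c ≠ 0 := by
    by_cases h1 : u j = 0
    · refine ⟨u, hu, h1, ?_⟩
      by_contra! h2
      exact h fun a ha b hb => by rw [h2 a ha, h2 b hb, zero_mul, zero_mul]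
    · refine ⟨fun c => u j * u' c - u' j * u c, fun a ha => ?_, by ring, ?_⟩
      · have e : ∀ c, (M (IJ.1.getD a 0) c).ev x * (u j * u' c - u' j * u c) =
            u j * ((M (IJ.1.getD a 0) c).ev x * u' c) - u' j * ((M (IJ.1.getD a 0) c).ev x * u c) :=
          fun c => by ring
        simp only [e, sum_sub_distrib, ← mul_sum, hu a ha, hu' a ha, mul_zero, sub_zero]
      · by_contra! h2
        refine h fun a ha b hb => mul_left_cancel₀ h1 ?_
        linear_combination u a * h2 b hb - u b * h2 a ha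
  let g : Fin k → ℕ := fun b => IJ.2.getD b 0
  have hg : (range (k + 1)).erase j ⊆ univ.image g := fun c hc' => by
    obtain ⟨h1, h2⟩ := mem_erase.1 hc'
    obtain ⟨b, hb, h3⟩ := (hc c (mem_range.1 h2)).resolve_left h1
    exact mem_image.2 ⟨⟨b, hb⟩, mem_univ _, h3⟩
  have hcard : ((range (k + 1)).erase j).card = k := by simp [card_erase_of_mem (mem_range.2 hj)]
  have he : (range (k + 1)).erase j = univ.image g :=
    eq_of_subset_of_card_le hg (by rw [hcard]; exact card_image_le.trans (by simp))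
  have hi : Set.InjOn g (univ : Finset (Fin k)) := card_image_iff.1 (by rw [← he, hcard]; simp)
  rw [mnr, ev_detE, ← Matrix.exists_mulVec_eq_zero_iff]
  refine ⟨fun b => w (g b), fun h0 => ?_, funext fun a => ?_⟩
  · obtain ⟨b, -, rfl⟩ := mem_image.1 (hg (mem_erase.2 ⟨fun h1 : c = j => hwc (h1 ▸ hw0), mem_range.2 hck⟩))
    exact hwc (congrFun h0 b)
  · have h1 := hw a a.2
    rw [← add_sum_erase _ _ (mem_range.2 hj), hw0, mul_zero, zero_add, he, sum_image hi] at h1
    exact h1

/-! ### lifting -/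

/-- a homogeneous polynomial of degree `d` in the variables `o, …, o + r` -/
def decH (b o r : ℕ) : ℕ → ℕ → E :=
  Nat.rec (fun d N => E.mul (E.n N) (E.pow (E.v o) d))
    (fun j f d => Nat.rec (fun N => E.n N)
      (fun i g N => cond (Nat.beq N 0) (E.n 0)
        (E.add (f (Nat.succ i) (Nat.mod N (Nat.shiftLeft 1 (Nat.mul b (bin j (Nat.succ i))))))
          (E.mul (E.v (Nat.add o (Nat.succ j)))
            (g (Nat.shiftRight N (Nat.mul b (bin j (Nat.succ i))))))))
      d) r

/-- the same with signs : the positive part is in the lower `s` bits -/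
def decS (b o r d s N : ℕ) : E :=
  E.add (decH b o r d (Nat.mod N (Nat.shiftLeft 1 s))) (E.neg (decH b o r d (Nat.shiftRight N s)))

/-- `∑ c_j * f_j` with homogeneous cofactors in the variables `0, …, r`, total degree `D` -/
def cmH (b r D : ℕ) (fs : List E) : List ℕ → E :=
  List.rec (fun _ => E.n 0) (fun f _ g N => cond (Nat.beq (N.headD 0) 0) (g N.tail)
    (E.add (E.mul (decH b 0 r (Nat.sub D f.td) (N.headD 0)) f) (g N.tail))) fs

/-- the same with signs -/
def cmS (b r D s : ℕ) (fs : List E) : List ℕ → E :=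
  List.rec (fun _ => E.n 0) (fun f _ g N => cond (Nat.beq (N.headD 0) 0) (g N.tail)
    (E.add (E.mul (decS b 0 r (Nat.sub D f.td) s (N.headD 0)) f) (g N.tail))) fs

theorem ev_cmH {R : Type*} [CommRing R] {x : ℕ → R} (b r D : ℕ) {fs : List E}
    (h : ∀ f ∈ fs, f.ev x = 0) (N : List ℕ) : (cmH b r D fs N).ev x = 0 := by
  induction fs generalizing N with
  | nil => exact Nat.cast_zero
  | cons f fs ih =>
    have h1 := ih (fun g hg => h g (by simp [hg])) N.tail
    change E.ev x (cond (Nat.beq (N.headD 0) 0) (cmH b r D fs N.tail)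
      (E.add (E.mul _ f) (cmH b r D fs N.tail))) = 0
    cases Nat.beq (N.headD 0) 0
    · simp [h f (by simp), h1]
    · exact h1

theorem ev_cmS {R : Type*} [CommRing R] {x : ℕ → R} (b r D s : ℕ) {fs : List E}
    (h : ∀ f ∈ fs, f.ev x = 0) (N : List ℕ) : (cmS b r D s fs N).ev x = 0 := by
  induction fs generalizing N with
  | nil => exact Nat.cast_zero
  | cons f fs ih =>
    have h1 := ih (fun g hg => h g (by simp [hg])) N.tail
    change E.ev x (cond (Nat.beq (N.headD 0) 0) (cmS b r D s fs N.tail)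
      (E.add (E.mul _ f) (cmS b r D s fs N.tail))) = 0
    cases Nat.beq (N.headD 0) 0
    · simp [h f (by simp), h1]
    · exact h1

/-- the certificate that `fs` has no common zero in `P^r` modulo `13` -/
def okL (r D w k : ℕ) (fs : List E) (cs : List (List ℕ)) : Bool :=
  fs.all E.hm && (List.range (r + 1)).all fun i =>
    E.okP 12 w k (List.replicate (r + 1) (D + 1))
      (E.add (cmH 4 r D fs (cs.getD i [])) (E.neg (E.pow (E.v i) D)))

theorem exists_val : ∃ O : ValuationSubring ℂ, ((13 : ℕ) : IsLocalRing.ResidueField O) = 0 := by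
  obtain ⟨O, -, h⟩ := Ideal.image_subset_nonunits_valuationSubring
    (Ideal.span {((13 : ℕ) : (⊥ : Subring ℂ))}) (by
      rw [Ne, Ideal.span_singleton_eq_top, isUnit_iff_exists_inv]
      rintro ⟨⟨_, c, rfl⟩, hc⟩
      have h1 : ((13 * c : ℤ) : ℂ) = (1 : ℤ) := by
        have h3 : ((13 : ℕ) : ℂ) * (c : ℂ) = 1 := congrArg Subtype.val hc
        simpa using h3
      have h2 := Int.cast_injective h1
      omega)
  refine ⟨O, ?_⟩
  rw [← map_natCast (IsLocalRing.residue O), IsLocalRing.residue_eq_zero_iff,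
    ← ValuationSubring.coe_mem_nonunits_iff]
  exact h ⟨_, Ideal.mem_span_singleton_self _, (map_natCast _ 13).trans (map_natCast O.subtype 13).symm⟩

/-- **lifting** -/
theorem lift {r D w k : ℕ} {fs : List E} {cs : List (List ℕ)} (h : okL r D w k fs cs = true)
    {x : Fin (r + 1) → ℂ} (hx : ∀ f ∈ fs, f.ev (ext x) = 0) : x = 0 := by
  simp only [okL, Bool.and_eq_true, List.all_eq_true, List.mem_range] at h
  obtain ⟨O, hO⟩ := exists_val
  obtain ⟨i, -, hi⟩ := univ.exists_max_image (fun i => O.valuation (x i)) univ_nonempty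
  by_contra h0
  have h1 : x i ≠ 0 := fun h1 => h0 (funext fun j => by
    simpa [h1] using hi j (mem_univ _))
  have h2 : ∀ j, (x i)⁻¹ * x j ∈ O := fun j => by
    rw [← O.valuation_le_one_iff, map_mul, map_inv₀,
      inv_mul_le_one₀ (zero_lt_iff.2 ((Valuation.ne_zero_iff _).2 h1))]
    exact hi j (mem_univ _)
  let y : Fin (r + 1) → O := fun j => ⟨_, h2 j⟩
  have h3 : ∀ f ∈ fs, f.ev (ext fun j => IsLocalRing.residue O (y j)) = 0 := fun f hf => by
    have h4 : f.ev (ext y) = 0 := Subtype.ext (by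
      have h5 := E.map_ev (ext y) O.subtype f
      have h6 : (fun j => O.subtype (ext y j)) = fun j => (x i)⁻¹ * ext x j := by
        ext j
        unfold ext
        split_ifs <;> simp [y]
      rw [h6, E.ev_smul _ (h.1 f hf), hx f hf, mul_zero] at h5
      exact h5)
    rw [← map_ext, ← E.map_ev, h4, map_zero]
  have h4 := E.ev_of_okP (h.2 i i.2) hO (ext fun j => IsLocalRing.residue O (y j))
  have h5 : y i = 1 := Subtype.ext (inv_mul_cancel₀ h1)
  simp [ev_cmH _ _ _ h3, h5] at h4

end Crest.Agent.X262.Cert63
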